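import Vale.Agent.P356.MathlibUsed

/-!
Definitions of the problem file, for the L by L square and local dimension q.
-/

namespace Vale.Agent.P356

open Matrix

/-- Sites of the square of side `L`. -/
abbrev Site (L : ℕ) := Fin L × Fin L

/-- The l1 distance of two sites. -/
def dist1 {L : ℕ} (x y : Site L) : ℕ :=
  ((x.1 : ℤ) - (y.1 : ℤ)).natAbs + ((x.2 : ℤ) - (y.2 : ℤ)).natAbs

/-- Basis configurations of spins with `q` levels on the site set `V`; the Hilbert space is the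
space of functions `Conf V q → ℂ`. -/
abbrev Conf (V : Type*) (q : ℕ) := V → Fin q

/-- Operators, as matrices in the product basis. -/
abbrev Op (V : Type*) (q : ℕ) := Matrix (Conf V q) (Conf V q) ℂ

/-- `h` acts on the tensor factors in `X` and as the identity elsewhere. -/
def ActsOn {V : Type*} {q : ℕ} (X : Finset V) (h : Op V q) : Prop :=
  ∃ k : Matrix (X → Fin q) (X → Fin q) ℂ, ∀ s t : Conf V q,
    ((∀ x, x ∉ X → s x = t x) → h s t = k (fun x => s x) (fun x => t x)) ∧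
    ((∃ x, x ∉ X ∧ s x ≠ t x) → h s t = 0)

/-- Squared norm of a state. -/
noncomputable def nsq {ι : Type*} [Fintype ι] (ψ : ι → ℂ) : ℝ := ∑ s, ‖ψ s‖ ^ 2

/-- Operator norm at most `J`. -/
def OpNormLe {ι : Type*} [Fintype ι] (h : Matrix ι ι ℂ) (J : ℝ) : Prop :=
  ∀ ψ : ι → ℂ, nsq (h *ᵥ ψ) ≤ J ^ 2 * nsq ψ

/-- Admissible Hamiltonians with range `R` and strength `J`. -/
def Admissible (L q R : ℕ) (J : ℝ) (H : Op (Site L) q) : Prop :=
  ∃ h : Finset (Site L) → Op (Site L) q,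
    (∀ X, (h X).IsHermitian ∧ ActsOn X (h X) ∧ OpNormLe (h X) J ∧
      (h X ≠ 0 → X.Nonempty ∧ ∀ x ∈ X, ∀ y ∈ X, dist1 x y ≤ R)) ∧
    H = ∑ X, h X

/-- `Ω` is a unit vector with `H Ω = E Ω` and `H - E ≥ Δ (1 - |Ω⟩⟨Ω|)`. -/
def GappedGround {ι : Type*} [Fintype ι] (H : Matrix ι ι ℂ) (Δ E : ℝ) (Ω : ι → ℂ) : Prop :=
  nsq Ω = 1 ∧ H *ᵥ Ω = (E : ℂ) • Ω ∧
    ∀ ψ : ι → ℂ, Δ * (nsq ψ - ‖star Ω ⬝ᵥ ψ‖ ^ 2) ≤ (star ψ ⬝ᵥ (H *ᵥ ψ)).re - E * nsq ψ

/-- Reduced density matrix of the region `A`: the partial trace over the complement. -/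
noncomputable def rdm {V : Type*} [Fintype V] [DecidableEq V] {q : ℕ} (A : Finset V)
    (Ω : Conf V q → ℂ) : Matrix ({x // x ∈ A} → Fin q) ({x // x ∈ A} → Fin q) ℂ :=
  fun a a' => ∑ b : {x // x ∉ A} → Fin q,
    Ω ((Equiv.piEquivPiSubtypeProd (fun x => x ∈ A) (fun _ => Fin q)).symm (a, b)) *
      star (Ω ((Equiv.piEquivPiSubtypeProd (fun x => x ∈ A) (fun _ => Fin q)).symm (a', b)))

/-- Von Neumann entropy (natural logarithm) of a Hermitian matrix, through its eigenvalues. -/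
noncomputable def vnEntropy {ι : Type*} [Fintype ι] [DecidableEq ι] (ρ : Matrix ι ι ℂ) : ℝ :=
  open Classical in
  if h : ρ.IsHermitian then ∑ i, Real.negMulLog (h.eigenvalues i) else 0

/-- Number of edges of the square lattice between `A` and its complement. -/
def bdry {L : ℕ} (A : Finset (Site L)) : ℕ :=
  ((Finset.univ : Finset (Site L × Site L)).filter
    (fun p => p.1 ∈ A ∧ p.2 ∉ A ∧ dist1 p.1 p.2 = 1)).card

/-- Entropy of the region `A` in the state `Ω`. -/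
noncomputable def entropyOf {V : Type*} [Fintype V] [DecidableEq V] {q : ℕ} (A : Finset V)
    (Ω : Conf V q → ℂ) : ℝ := vnEntropy (rdm A Ω)

/-- Pauli Z at the site `x`. -/
def opZ {V : Type*} [DecidableEq V] [Fintype V] (x : V) : Op V 2 :=
  Matrix.diagonal fun s => if s x = 0 then 1 else -1

/-- Pauli X at the site `x`. -/
def opX {V : Type*} [DecidableEq V] [Fintype V] (x : V) : Op V 2 :=
  fun s t => if t = Function.update s x (1 - s x) then 1 else 0

/-- Unfrustrated Ising Hamiltonians in an arbitrary transverse field and a compatible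
longitudinal field: after the gauge change `ε` all couplings and longitudinal fields are
ferromagnetic. -/
def UnfrustratedIsing (L : ℕ) : Set (Op (Site L) 2) :=
  { H | ∃ (ε : Site L → ℝ) (c : Site L → Site L → ℝ) (h b : Site L → ℝ),
      (∀ x, ε x = 1 ∨ ε x = -1) ∧ (∀ x y, 0 ≤ c x y) ∧ (∀ x, 0 ≤ b x) ∧
      H = - ∑ x, ∑ y, ((c x y * ε x * ε y : ℝ) : ℂ) • (opZ x * opZ y)
          - ∑ x, ((h x : ℝ) : ℂ) • opX x - ∑ x, ((b x * ε x : ℝ) : ℂ) • opZ x }

end Vale.Agent.P356
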