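import Vale.Agent.P356.Defs

/-!
Quantities attached to the spectrum of the reduced density matrix.
-/

namespace Vale.Agent.P356

open Matrix

variable {ι : Type*} [Fintype ι] [DecidableEq ι]

/-- Eigenvalues of a Hermitian matrix. -/
noncomputable def eig (ρ : Matrix ι ι ℂ) (i : ι) : ℝ :=
  open Classical in
  if h : ρ.IsHermitian then h.eigenvalues i else 0

/-- Deviation of `-log` of an eigenvalue from its mean, the entropy. -/
noncomputable def dev (ρ : Matrix ι ι ℂ) (i : ι) : ℝ :=
  -Real.log (eig ρ i) - vnEntropy ρ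

/-- The variance of `-log` of the eigenvalues is at most `K`. -/
def VarLe (ρ : Matrix ι ι ℂ) (K : ℝ) : Prop :=
  ∑ i, eig ρ i * dev ρ i ^ 2 ≤ K

/-- The weight of the eigenvalues with deviation at least `u` decays exponentially in `u` on the
scale of the square root of `K`. -/
def TailLe (ρ : Matrix ι ι ℂ) (K : ℝ) : Prop :=
  ∀ u : ℝ, (open Classical in ∑ i, (if u ≤ |dev ρ i| then eig ρ i else 0)) ≤
    6 * Real.exp (-(u / (4 + 2 * Real.sqrt K)))

/-- The entropy is bounded through any single positive eigenvalue. -/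
def SingleLe (ρ : Matrix ι ι ℂ) (K : ℝ) : Prop :=
  ∀ i, 0 < eig ρ i →
    vnEntropy ρ ≤ (5 + 3 * Real.sqrt K) * (1 - Real.log (eig ρ i))

/-- The three bounds together. -/
def SpreadLe (ρ : Matrix ι ι ℂ) (K : ℝ) : Prop := VarLe ρ K ∧ TailLe ρ K ∧ SingleLe ρ K

/-- The three bounds for the reduced state of the region `A`. -/
def SpreadOf {q : ℕ} (A : Finset ι) (Ω : Conf ι q → ℂ) (K : ℝ) : Prop := SpreadLe (rdm A Ω) K

end Vale.Agent.P356
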